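import Mathlib

/-! Bipartite Ramanujan graphs. -/

namespace Vale.Agent.P049

/-- A (simple) bipartite `d`-regular graph is bipartite Ramanujan if the eigenvalues of its
adjacency matrix, listed with multiplicity (the roots of the characteristic polynomial), are the
trivial pair `d`, `-d` and further eigenvalues `μ` with `|μ| ≤ 2 √(d-1)`. -/
def IsBipartiteRamanujan {V : Type*} [Fintype V] [DecidableEq V] (d : ℕ) (G : SimpleGraph V)
    [DecidableRel G.Adj] : Prop :=
  G.IsBipartite ∧ G.IsRegularOfDegree d ∧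
    ∃ s : Multiset ℝ, (G.adjMatrix ℝ).charpoly.roots = (d : ℝ) ::ₘ (-(d : ℝ)) ::ₘ s ∧
      ∀ μ ∈ s, |μ| ≤ 2 * √((d : ℝ) - 1)

end Vale.Agent.P049
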