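import Mathlib

/-! Graphs satisfying the Ramanujan condition up to few eigenvalues. -/

namespace Vale.Agent.P049

/-- A (simple) `d`-regular graph is Ramanujan up to `k` eigenvalues if the eigenvalues of its
adjacency matrix, listed with multiplicity (the roots of the characteristic polynomial), are `d`
and further eigenvalues `μ`, all of them at most `2 √(d-1)` and at most `k` of them (counted with
multiplicity) less than `-2 √(d-1)`. For `k = 0` this is the definition of a Ramanujan graph. -/
def IsRamanujanUpTo {V : Type*} [Fintype V] [DecidableEq V] (d k : ℕ) (G : SimpleGraph V)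
    [DecidableRel G.Adj] : Prop :=
  G.IsRegularOfDegree d ∧
    ∃ s : Multiset ℝ, (G.adjMatrix ℝ).charpoly.roots = (d : ℝ) ::ₘ s ∧
      (∀ μ ∈ s, μ ≤ 2 * √((d : ℝ) - 1)) ∧
      (s.filter fun μ => μ < -(2 * √((d : ℝ) - 1))).card ≤ k

end Vale.Agent.P049
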